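import Vale.Agent.P040.Defs
import Vale.Agent.P040.Upper

open Vale.Agent.P040

theorem Vale.Agent.Results.P040.Zarankiewicz.result (m n : ℕ) :
    IsLeast (crossingCounts (completeBipartiteGraph (Fin m) (Fin n))) (d m * d n) ∧
      ∀ D : Drawing (completeBipartiteGraph (Fin m) (Fin n)), D.FiniteDouble →
        d m * d n ≤ D.crossingPoints.ncard := by
  refine ⟨⟨⟨zdraw m n, zadm m n, le_antisymm (zcount m n).2 (lower _ (zdouble m n))⟩, ?_⟩,
    fun D hD => lower D hD⟩
  rintro c ⟨D, hD, rfl⟩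
  exact lower D hD.1
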